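import Vale.Agent.P247.H332.K3.Sta

/-!
# P247, K3-FRAME: a global complex frame of `(ℝ⁴, J)`
-/

open scoped ContDiff Topology
open Set Filter Metric

noncomputable section

namespace Vale.Agent.P247.H447

open Vale.Agent.P247.H74 Vale.Agent.P247.H332

theorem val_self (a : CForm) (x u : R4) : a.val x u u = 0 := by
  simp [CForm.val, a.κ_self]

theorem val_add_right (a : CForm) (x u v w : R4) : a.val x u (v + w) = a.val x u v + a.val x u w := by
  simp only [CForm.val, map_add, _root_.add_apply]
  ring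

theorem val_smul_right (a : CForm) (x u v : R4) (r : ℝ) : a.val x u (r • v) = r * a.val x u v := by
  simp only [CForm.val, map_smul, _root_.smul_apply, smul_eq_mul]
  ring

/-- `val x u` as a linear functional of the last variable -/
theorem val_sum_right (a : CForm) (x u v : R4) : a.val x u v = ∑ i, v i * a.val x u (e i) := by
  have h : v = ∑ i, v i • e i := by
    ext j
    simp [e, Finset.sum_apply, Pi.single_apply]
  have h2 : ∀ s : Finset (Fin 4), a.val x u (∑ i ∈ s, v i • e i) = ∑ i ∈ s, v i * a.val x u (e i) := by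
    intro s
    induction s using Finset.induction_on with
    | empty => simp [CForm.val]
    | insert j s hj ih =>
      rw [Finset.sum_insert hj, Finset.sum_insert hj, val_add_right, ih, val_smul_right]
  conv_lhs => rw [h]
  exact h2 _

theorem fderiv_per {F : Type*} [NormedAddCommGroup F] [NormedSpace ℝ F] {g : R4 → F}
    (hg : ∀ (n : Fin 4 → ℤ) (x : R4), g (fun i => x i + n i) = g x) (n : Fin 4 → ℤ) (x : R4) :
    fderiv ℝ g (fun i => x i + n i) = fderiv ℝ g x := by
  have h1 : (fun i => x i + (n i : ℝ)) = x + fun i => (n i : ℝ) := rfl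
  rw [h1, ← fderiv_comp_add_right]
  congr 1
  ext y
  exact hg n y

theorem val_per (a : CForm) (n : Fin 4 → ℤ) (x u v : R4) :
    a.val (fun i => x i + n i) u v = a.val x u v := by
  simp only [CForm.val, fderiv_per a.lam_per]

theorem val_smooth (a : CForm) {u v : R4 → R4} (hu : ContDiff ℝ ∞ u) (hv : ContDiff ℝ ∞ v) :
    ContDiff ℝ ∞ fun x => a.val x (u x) (v x) := by
  unfold CForm.val
  have h1 : ContDiff ℝ ∞ (fderiv ℝ a.lam) := a.lam_smooth.fderiv_right (by simp)
  exact ((contDiff_const.clm_apply hu).clm_apply hv).add ((h1.clm_apply hu).clm_apply hv) |>.sub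
    ((h1.clm_apply hv).clm_apply hu)

theorem c10_ne (D : Data) (x : R4) : D.c x 1 0 ≠ 0 := by
  intro h
  have h1 := D.c_sq x 0 0
  simp [Fin.sum_univ_two] at h1
  rw [h] at h1
  nlinarith [sq_nonneg (D.c x 0 0)]

theorem J_smul (D : Data) (x u : R4) (r : ℝ) : D.J x (r • u) = r • D.J x u := map_smul _ _ _

/-- `a` and `J a` are independent -/
theorem indep_J (D : Data) (x a : R4) (ha : a ≠ 0) (p q : ℝ) (h : p • a + q • D.J x a = 0) :
    p = 0 ∧ q = 0 := by
  have h2 : D.J x (p • a + q • D.J x a) = 0 := by rw [h, map_zero]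
  rw [map_add, map_smul, map_smul, D.J_sq] at h2
  have h3 : (p * p + q * q) • a = 0 := by
    have : (p * p + q * q) • a = p • (p • a + q • D.J x a) - q • (p • D.J x a + q • -a) := by
      simp only [smul_add, smul_neg, smul_smul, add_smul, mul_comm q p]
      abel
    rw [this, h, h2]
    simp
  have h4 : p * p + q * q = 0 := by
    rcases smul_eq_zero.1 h3 with h5 | h5
    · exact h5
    · exact absurd h5 ha
  constructor <;> nlinarith [mul_self_nonneg p, mul_self_nonneg q]

theorem e_ne (i : Fin 4) : e i ≠ 0 := by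
  intro h
  have := congrFun h i
  simp [e] at this

/-- not all of `ℝ⁴` is spanned by two vectors -/
theorem not_span2 (a b : R4) : ¬ ∀ v : R4, ∃ p q : ℝ, v = p • a + q • b := by
  intro h
  have h1 : Submodule.span ℝ (({a, b} : Finset R4) : Set R4) = ⊤ := by
    rw [eq_top_iff]
    intro v _
    obtain ⟨p, q, hpq⟩ := h v
    rw [hpq]
    refine Submodule.add_mem _ (Submodule.smul_mem _ _ (Submodule.subset_span (by simp)))
      (Submodule.smul_mem _ _ (Submodule.subset_span (by simp)))
  have h2 := finrank_span_finset_le_card (R := ℝ) ({a, b} : Finset R4)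
  rw [Set.finrank, h1, finrank_top] at h2
  have h3 : Module.finrank ℝ R4 = 4 := by simp
  rw [h3] at h2
  have h4 : ({a, b} : Finset R4).card ≤ 2 := Finset.card_le_two
  omega

/-- the two covectors `η j (a, ·)` are independent -/
theorem indep_eta (D : Data) (x a : R4) (ha : a ≠ 0) (p q : ℝ)
    (h : ∀ v, p * (D.η 0).val x a v + q * (D.η 1).val x a v = 0) : p = 0 ∧ q = 0 := by
  by_contra hpq
  have h1 : ∀ v, (p * D.c x 0 0 + q * D.c x 1 0) * (D.η 0).val x a v
      + (p * D.c x 0 1 + q * D.c x 1 1) * (D.η 1).val x a v = 0 := by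
    intro v
    have := h (D.J x v)
    rw [D.η_J, D.η_J] at this
    simp only [Fin.sum_univ_two] at this
    linarith
  have c00 := D.c_sq x 0 0
  have c01 := D.c_sq x 0 1
  have c10 := D.c_sq x 1 0
  have c11 := D.c_sq x 1 1
  simp [Fin.sum_univ_two] at c00 c01 c10 c11
  -- the determinant of `(p, q)` and `(p, q) c`
  have hdet : p * (p * D.c x 0 1 + q * D.c x 1 1) - q * (p * D.c x 0 0 + q * D.c x 1 0) ≠ 0 := by
    intro h0
    generalize D.c x 0 0 = α at *
    generalize D.c x 0 1 = β at *
    generalize D.c x 1 0 = γ at *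
    generalize D.c x 1 1 = δ at *
    have hβ : β ≠ 0 := by rintro rfl; nlinarith [mul_self_nonneg α]
    have hγ : γ ≠ 0 := by rintro rfl; nlinarith [mul_self_nonneg α]
    have hδ : δ = -α := by
      have : (α + δ) * β = 0 := by nlinarith
      rcases mul_eq_zero.1 this with h5 | h5
      · linarith
      · exact absurd h5 hβ
    subst hδ
    -- `β p ^ 2 - 2 α p q - γ q ^ 2 = 0`, discriminant `4 (α ^ 2 + β γ) = -4`
    have h6 : (β * p - α * q) ^ 2 + q ^ 2 = 0 := by
      have : (β * p - α * q) ^ 2 + q ^ 2 = β * (p * (p * β + q * -α) - q * (p * α + q * γ))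
          + q ^ 2 * (α * α + β * γ + 1) := by ring
      rw [this, h0, c00]
      ring
    have hq : q = 0 := by nlinarith [sq_nonneg (β * p - α * q), sq_nonneg q]
    subst hq
    have hp : p = 0 := by
      have : (β * p) ^ 2 = 0 := by nlinarith
      have := pow_eq_zero_iff (two_ne_zero) |>.1 this
      rcases mul_eq_zero.1 this with h5 | h5
      · exact absurd h5 hβ
      · exact h5
    exact hpq ⟨hp, rfl⟩
  apply not_span2 a (D.J x a)
  intro v
  refine D.nd x a v ha ?_
  have e0 := h v
  have e1 := h1 v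
  intro j
  have k0 : (D.η 0).val x a v = 0 := by
    have : (p * (p * D.c x 0 1 + q * D.c x 1 1) - q * (p * D.c x 0 0 + q * D.c x 1 0))
        * (D.η 0).val x a v = 0 := by
      linear_combination (p * D.c x 0 1 + q * D.c x 1 1) * e0 - q * e1
    exact (mul_eq_zero.1 this).resolve_left hdet
  have k1 : (D.η 1).val x a v = 0 := by
    have : (p * (p * D.c x 0 1 + q * D.c x 1 1) - q * (p * D.c x 0 0 + q * D.c x 1 0))
        * (D.η 1).val x a v = 0 := by
      linear_combination p * e1 - (p * D.c x 0 0 + q * D.c x 1 0) * e0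
    exact (mul_eq_zero.1 this).resolve_left hdet
  fin_cases j
  · exact k0
  · exact k1

/-- Gram matrix of the covectors `η j (e 0, ·)` -/
def gm (D : Data) (j k : Fin 2) (x : R4) : ℝ :=
  ∑ i, (D.η j).val x (e 0) (e i) * (D.η k).val x (e 0) (e i)

def gdet (D : Data) (x : R4) : ℝ := gm D 0 0 x * gm D 1 1 x - gm D 0 1 x * gm D 0 1 x

theorem gdet_ne (D : Data) (x : R4) : gdet D x ≠ 0 := by
  intro h
  unfold gdet at h
  -- `g 11 l 0 - g 01 l 1 = 0`
  have hk : ∀ (p q : ℝ), (∑ i, (p * (D.η 0).val x (e 0) (e i) + q * (D.η 1).val x (e 0) (e i)) ^ 2)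
      = p * p * gm D 0 0 x + 2 * p * q * gm D 0 1 x + q * q * gm D 1 1 x := by
    intro p q
    simp only [gm, Finset.mul_sum, ← Finset.sum_add_distrib]
    refine Finset.sum_congr rfl fun i _ => ?_
    ring
  have key : ∀ p q : ℝ, p * p * gm D 0 0 x + 2 * p * q * gm D 0 1 x + q * q * gm D 1 1 x = 0 →
      p = 0 ∧ q = 0 := by
    intro p q hpq
    apply indep_eta D x (e 0) (e_ne 0)
    rw [← hk] at hpq
    have h2 := (Finset.sum_eq_zero_iff_of_nonneg (fun i _ => sq_nonneg _)).1 hpq
    intro v
    rw [val_sum_right (D.η 0), val_sum_right (D.η 1), Finset.mul_sum, Finset.mul_sum,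
      ← Finset.sum_add_distrib]
    refine Finset.sum_eq_zero fun i _ => ?_
    have h3 := pow_eq_zero_iff (two_ne_zero) |>.1 (h2 i (Finset.mem_univ i))
    have : p * (v i * (D.η 0).val x (e 0) (e i)) + q * (v i * (D.η 1).val x (e 0) (e i))
        = v i * (p * (D.η 0).val x (e 0) (e i) + q * (D.η 1).val x (e 0) (e i)) := by ring
    rw [this, h3, mul_zero]
  have h1 := key (gm D 1 1 x) (-gm D 0 1 x) (by linear_combination gm D 1 1 x * h)
  have h2 := key 0 1 (by rw [h1.1]; ring)
  exact one_ne_zero h2.2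

/-- the second vector of the frame -/
def bv (D : Data) (x : R4) : R4 := fun i =>
  (gm D 1 1 x * (D.η 0).val x (e 0) (e i) - gm D 0 1 x * (D.η 1).val x (e 0) (e i)) / gdet D x

theorem eta_bv (D : Data) (x : R4) (j : Fin 2) :
    (D.η j).val x (e 0) (bv D x) = if j = 0 then 1 else 0 := by
  have hd := gdet_ne D x
  rw [val_sum_right]
  have h1 : ∀ i, bv D x i * (D.η j).val x (e 0) (e i) =
      (gm D 1 1 x * ((D.η 0).val x (e 0) (e i) * (D.η j).val x (e 0) (e i))
        - gm D 0 1 x * ((D.η 1).val x (e 0) (e i) * (D.η j).val x (e 0) (e i))) / gdet D x := by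
    intro i
    unfold bv
    ring
  rw [Finset.sum_congr rfl fun i _ => h1 i, ← Finset.sum_div, Finset.sum_sub_distrib,
    ← Finset.mul_sum, ← Finset.mul_sum]
  change (gm D 1 1 x * gm D 0 j x - gm D 0 1 x * gm D 1 j x) / gdet D x = _
  fin_cases j
  · simp only [Fin.zero_eta, if_true]
    rw [div_eq_one_iff_eq hd]
    have : gm D 1 0 x = gm D 0 1 x := by
      simp only [gm]
      exact Finset.sum_congr rfl fun i _ => mul_comm _ _
    rw [this]
    unfold gdet
    ring
  · simp
    left
    ring

theorem gm_smooth (D : Data) (j k : Fin 2) : ContDiff ℝ ∞ (gm D j k) := by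
  unfold gm
  exact ContDiff.sum fun i _ => (val_smooth _ contDiff_const contDiff_const).mul
    (val_smooth _ contDiff_const contDiff_const)

theorem bv_smooth (D : Data) : ContDiff ℝ ∞ (bv D) := by
  rw [contDiff_pi]
  intro i
  unfold bv
  refine ContDiff.div ?_ ?_ (gdet_ne D)
  · exact ((gm_smooth D 1 1).mul (val_smooth _ contDiff_const contDiff_const)).sub
      ((gm_smooth D 0 1).mul (val_smooth _ contDiff_const contDiff_const))
  · exact ((gm_smooth D 0 0).mul (gm_smooth D 1 1)).sub ((gm_smooth D 0 1).mul (gm_smooth D 0 1))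

theorem gm_per (D : Data) (j k : Fin 2) (n : Fin 4 → ℤ) (x : R4) :
    gm D j k (fun i => x i + n i) = gm D j k x := by
  simp only [gm, val_per]

theorem bv_per (D : Data) (n : Fin 4 → ℤ) (x : R4) : bv D (fun i => x i + n i) = bv D x := by
  unfold bv gdet
  simp only [gm_per, val_per]

/-- the frame -/
def fr (D : Data) (x : R4) : R4 →L[ℝ] R4 :=
  (ContinuousLinearMap.proj (R := ℝ) (φ := fun _ : Fin 4 => ℝ) 0).smulRight (e 0)
  + (ContinuousLinearMap.proj (R := ℝ) (φ := fun _ : Fin 4 => ℝ) 1).smulRight (D.J x (e 0))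
  + (ContinuousLinearMap.proj (R := ℝ) (φ := fun _ : Fin 4 => ℝ) 2).smulRight (bv D x)
  + (ContinuousLinearMap.proj (R := ℝ) (φ := fun _ : Fin 4 => ℝ) 3).smulRight (D.J x (bv D x))

theorem fr_apply (D : Data) (x u : R4) :
    fr D x u = u 0 • e 0 + u 1 • D.J x (e 0) + u 2 • bv D x + u 3 • D.J x (bv D x) := by
  simp [fr]

theorem fr_smooth (D : Data) : ContDiff ℝ ∞ (fr D) := by
  have h1 : ContDiff ℝ ∞ fun x => D.J x (e 0) := D.J_smooth.clm_apply contDiff_const
  have h2 : ContDiff ℝ ∞ fun x => D.J x (bv D x) := D.J_smooth.clm_apply (bv_smooth D)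
  unfold fr
  exact ((contDiff_const.add (contDiff_const.smulRight h1)).add
    (contDiff_const.smulRight (bv_smooth D))).add (contDiff_const.smulRight h2)

theorem fr_per (D : Data) (n : Fin 4 → ℤ) (x : R4) : fr D (fun i => x i + n i) = fr D x := by
  unfold fr
  rw [D.J_per, bv_per]

theorem fr_J (D : Data) (x u : R4) : fr D x (Jst u) = D.J x (fr D x u) := by
  rw [fr_apply, fr_apply]
  simp only [map_add, map_smul, D.J_sq]
  have h0 : Jst u 0 = -u 1 := rfl
  have h1 : Jst u 1 = u 0 := rfl
  have h2 : Jst u 2 = -u 3 := rfl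
  have h3 : Jst u 3 = u 2 := rfl
  rw [h0, h1, h2, h3]
  simp only [neg_smul, smul_neg]
  abel

theorem fr_inj (D : Data) (x : R4) : Function.Injective (fr D x) := by
  rw [injective_iff_map_eq_zero]
  intro u hu
  rw [fr_apply] at hu
  have h1 : ∀ j, (D.η j).val x (e 0) (u 0 • e 0 + u 1 • D.J x (e 0) + u 2 • bv D x
      + u 3 • D.J x (bv D x)) = 0 := by
    intro j
    rw [hu]
    simp [CForm.val]
  have h2 : ∀ j, u 2 * (if j = (0 : Fin 2) then 1 else 0) + u 3 * D.c x j 0 = 0 := by
    intro j
    have := h1 j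
    rw [val_add_right, val_add_right, val_add_right, val_smul_right, val_smul_right,
      val_smul_right, val_smul_right, val_self, D.η_J, D.η_J, eta_bv] at this
    simp only [Fin.sum_univ_two, val_self, eta_bv] at this
    simpa using this
  have h3 := h2 1
  have h4 := h2 0
  simp at h3 h4
  have u3 : u 3 = 0 := by
    rcases h3 with h | h
    · exact h
    · exact absurd h (c10_ne D x)
  have u2 : u 2 = 0 := by
    rw [u3] at h4
    linarith
  rw [u2, u3, zero_smul, zero_smul, add_zero, add_zero] at hu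
  obtain ⟨u0, u1⟩ := indep_J D x (e 0) (e_ne 0) _ _ hu
  ext i
  fin_cases i
  · exact u0
  · exact u1
  · exact u2
  · exact u3

theorem fr_unit (D : Data) (x : R4) : IsUnit (fr D x) := by
  rw [ContinuousLinearMap.isUnit_iff_bijective]
  refine ⟨fr_inj D x, ?_⟩
  exact (LinearMap.injective_iff_surjective (f := (fr D x : R4 →ₗ[ℝ] R4))).1 (fr_inj D x)

theorem frame : FRAME_statement := by
  intro D
  refine ⟨fr D, fun x => Ring.inverse (fr D x), fr_smooth D, ?_, fr_per D, ?_, ?_, ?_, fr_J D⟩
  · rw [contDiff_iff_contDiffAt]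
    intro x
    obtain ⟨U, hU⟩ := fr_unit D x
    have := contDiffAt_ringInverse ℝ (n := ∞) U
    rw [hU] at this
    exact this.comp x (fr_smooth D).contDiffAt
  · intro n x
    simp only [fr_per]
  · intro x u
    have := Ring.mul_inverse_cancel _ (fr_unit D x)
    exact congrArg (fun L : R4 →L[ℝ] R4 => L u) this
  · intro x u
    have := Ring.inverse_mul_cancel _ (fr_unit D x)
    exact congrArg (fun L : R4 →L[ℝ] R4 => L u) this

end Vale.Agent.P247.H447
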