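import Vale.Agent.P247.H447.Rep

/-!
# P247, K3-REG: regularity of solutions in `WR (m + 1)`
-/

open scoped ContDiff Topology
open Set Filter Metric

noncomputable section

namespace Vale.Agent.P247.H447

open Vale.Agent.P247.H74 Vale.Agent.P247.H332

/-- all components are represented -/
def VRep (m : ℕ) (u : P2 → R4) : Prop := ∀ i, Rep m fun p => u p i

theorem VRep.down (W : WA) {m : ℕ} {u : P2 → R4} (hu : VRep (m + 1) u) : VRep m u :=
  fun i => (hu i).down W

theorem VRep.add {m : ℕ} {u v : P2 → R4} (hu : VRep m u) (hv : VRep m v) :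
    VRep m fun p => u p + v p := fun i => (hu i).add (hv i)

theorem VRep.sub {m : ℕ} {u v : P2 → R4} (hu : VRep m u) (hv : VRep m v) :
    VRep m fun p => u p - v p := fun i => (hu i).sub (hv i)

theorem VRep.cmul {m : ℕ} {u : P2 → R4} (c : ℝ) (hu : VRep m u) :
    VRep m fun p => c • u p := fun i => (hu i).cmul c

theorem VRep.const (W : WA) (m : ℕ) (c : R4) : VRep m fun _ => c := fun i => Rep.const W m (c i)

theorem VRep.Jst {m : ℕ} {u : P2 → R4} (hu : VRep m u) :
    VRep m fun p => Jst (u p) := by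
  intro i
  fin_cases i
  · have := (hu 1).cmul (-1)
    convert this using 2
    change -_ = _
    ring
  · exact hu 0
  · have := (hu 3).cmul (-1)
    convert this using 2
    change -_ = _
    ring
  · exact hu 2

/-- composition with a smooth periodic function -/
theorem Rep.comp (W : WA) {m : ℕ} (hm : 2 ≤ m) {f : P2 → R4} (hf : VRep m f) {F : R4 → ℝ}
    (hF : ContDiff ℝ ∞ F) (hper : ∀ (n : Fin 4 → ℤ) x, F (fun i => x i + n i) = F x) :
    Rep m fun p => F (phi f p) := by
  obtain ⟨N, -, hN⟩ := W.sup m hm F hF hper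
  choose a ha using hf
  refine ⟨N a, funext fun p => ?_⟩
  rw [hN]
  congr 1
  unfold phi
  congr 1
  funext i
  exact congrFun (ha i) p

theorem clm_sum (L : R4 →L[ℝ] R4) (u : R4) (i : Fin 4) : L u i = ∑ j, L (e j) i * u j := by
  have h : u = ∑ j, u j • e j := by
    ext k
    simp [e, Finset.sum_apply, Pi.single_apply]
  conv_lhs => rw [h]
  rw [map_sum, Finset.sum_apply]
  refine Finset.sum_congr rfl fun j _ => ?_
  rw [map_smul, Pi.smul_apply, smul_eq_mul, mul_comm]

/-- `A(φ) u` -/
theorem VRep.lin (W : WA) {m : ℕ} (hm : 2 ≤ m) {f u : P2 → R4} (hf : VRep m f) (hu : VRep m u)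
    {A : R4 → R4 →L[ℝ] R4} (hA : ContDiff ℝ ∞ A)
    (hper : ∀ (n : Fin 4 → ℤ) x, A (fun i => x i + n i) = A x) :
    VRep m fun p => A (phi f p) (u p) := by
  intro i
  have h : ∀ p, A (phi f p) (u p) i = ∑ j, A (phi f p) (e j) i * u p j := fun p => clm_sum _ _ _
  simp only [h]
  refine Rep.sum W _ fun j _ => ?_
  refine Rep.mul W ?_ (hu j)
  refine Rep.comp W hm hf (F := fun x => A x (e j) i) ?_ ?_
  · exact (contDiff_pi.1 (hA.clm_apply contDiff_const)) i
  · intro n x
    simp only [hper]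

/-- `B(φ) u v` -/
theorem VRep.bil (W : WA) {m : ℕ} (hm : 2 ≤ m) {f u v : P2 → R4} (hf : VRep m f) (hu : VRep m u)
    (hv : VRep m v) {B : R4 → R4 →L[ℝ] R4 →L[ℝ] R4} (hB : ContDiff ℝ ∞ B)
    (hper : ∀ (n : Fin 4 → ℤ) x, B (fun i => x i + n i) = B x) :
    VRep m fun p => B (phi f p) (u p) (v p) := by
  intro i
  have h : ∀ p, B (phi f p) (u p) (v p) i = ∑ j, B (phi f p) (u p) (e j) i * v p j :=
    fun p => clm_sum _ _ _
  simp only [h]
  refine Rep.sum W _ fun j _ => ?_
  refine Rep.mul W ?_ (hv j)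
  have h2 : ∀ p, B (phi f p) (u p) (e j) i = ∑ k, B (phi f p) (e k) (e j) i * u p k :=
    fun p => clm_sum ((B (phi f p)).flip (e j)) (u p) i
  simp only [h2]
  refine Rep.sum W _ fun k _ => ?_
  refine Rep.mul W ?_ (hu k)
  refine Rep.comp W hm hf (F := fun x => B x (e k) (e j) i) ?_ ?_
  · exact (contDiff_pi.1 ((hB.clm_apply contDiff_const).clm_apply contDiff_const)) i
  · intro n x
    simp only [hper]

/-! ## the equation for `ξ = A'(φ) φ_s` -/

theorem evv_smooth (W : WA) {m : ℕ} {f : P2 → R4} (hf : VRep m f) : ContDiff ℝ m f := by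
  rw [contDiff_pi]
  exact fun i => (hf i).contDiff W

theorem lin_smooth {n : WithTop ℕ∞} : ContDiff ℝ n (lin : P2 → R4) := by
  unfold lin
  rw [contDiff_pi]
  intro i
  fin_cases i
  · exact contDiff_const
  · exact contDiff_const
  · exact contDiff_fst
  · exact contDiff_snd

theorem phi_smooth {n : WithTop ℕ∞} {f : P2 → R4} (hf : ContDiff ℝ n f) : ContDiff ℝ n (phi f) :=
  lin_smooth.add hf

theorem fderiv_lin (p w : P2) : fderiv ℝ (lin : P2 → R4) p w = lin w := by
  have h : IsBoundedLinearMap ℝ (lin : P2 → R4) := by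
    refine IsLinearMap.with_bound ⟨?_, ?_⟩ 1 ?_
    · intro x y
      unfold lin
      ext i
      fin_cases i <;> simp
    · intro c x
      unfold lin
      ext i
      fin_cases i <;> simp
    · intro x
      rw [one_mul, pi_norm_le_iff_of_nonneg (norm_nonneg _)]
      intro i
      unfold lin
      fin_cases i
      · simp
      · simp
      · exact norm_fst_le x
      · exact norm_snd_le x
  rw [h.fderiv]
  rfl

theorem ds_phi {f : P2 → R4} (hf : Differentiable ℝ f) (p : P2) :
    ds (phi f) p = e 2 + ds f p := by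
  unfold ds phi
  rw [fderiv_fun_add (lin_smooth.differentiable (n := 1) (by simp) p) (hf p)]
  rw [_root_.add_apply, fderiv_lin]
  congr 1
  unfold lin e
  ext i
  fin_cases i <;> simp

theorem dt_phi {f : P2 → R4} (hf : Differentiable ℝ f) (p : P2) :
    dt (phi f) p = e 3 + dt f p := by
  unfold dt phi
  rw [fderiv_fun_add (lin_smooth.differentiable (n := 1) (by simp) p) (hf p)]
  rw [_root_.add_apply, fderiv_lin]
  congr 1
  unfold lin e
  ext i
  fin_cases i <;> simp

theorem ds_comp (f : P2 → R4) (hf : Differentiable ℝ f) (p : P2) (i : Fin 4) :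
    ds f p i = ds (fun q => f q i) p := by
  unfold ds
  rw [fderiv_pi (fun i => (differentiable_pi.1 hf i) p)]
  rfl

theorem dt_comp (f : P2 → R4) (hf : Differentiable ℝ f) (p : P2) (i : Fin 4) :
    dt f p i = dt (fun q => f q i) p := by
  unfold dt
  rw [fderiv_pi (fun i => (differentiable_pi.1 hf i) p)]
  rfl

theorem VRep.ds (W : WA) {m : ℕ} {u : P2 → R4} (hu : VRep (m + 1) u) : VRep m (H74.ds u) := by
  intro i
  have h := (hu i).ds W
  have hd : Differentiable ℝ u := (evv_smooth W hu).differentiable (by simp)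
  convert h using 1
  funext p
  exact ds_comp u hd p i

theorem VRep.dt (W : WA) {m : ℕ} {u : P2 → R4} (hu : VRep (m + 1) u) : VRep m (H74.dt u) := by
  intro i
  have h := (hu i).dt W
  have hd : Differentiable ℝ u := (evv_smooth W hu).differentiable (by simp)
  convert h using 1
  funext p
  exact dt_comp u hd p i

theorem VRep.ds_phi (W : WA) {m : ℕ} {u : P2 → R4} (hu : VRep (m + 1) u) :
    VRep m (H74.ds (phi u)) := by
  have hd : Differentiable ℝ u := (evv_smooth W hu).differentiable (by simp)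
  have := (VRep.const W m (e 2)).add (hu.ds W)
  intro i
  convert this i using 2
  rw [H447.ds_phi hd]

theorem VRep.dt_phi (W : WA) {m : ℕ} {u : P2 → R4} (hu : VRep (m + 1) u) :
    VRep m (H74.dt (phi u)) := by
  have hd : Differentiable ℝ u := (evv_smooth W hu).differentiable (by simp)
  have := (VRep.const W m (e 3)).add (hu.dt W)
  intro i
  convert this i using 2
  rw [H447.dt_phi hd]

theorem fd_clm {L : R4 → R4 →L[ℝ] R4} (hL : Differentiable ℝ L) {g u : P2 → R4}
    (hg : Differentiable ℝ g) (hu : Differentiable ℝ u) (p w : P2) :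
    fderiv ℝ (fun q => L (g q) (u q)) p w
      = (fderiv ℝ L (g p) (fderiv ℝ g p w)) (u p) + L (g p) (fderiv ℝ u p w) := by
  have h1 : HasFDerivAt (fun q => L (g q)) ((fderiv ℝ L (g p)).comp (fderiv ℝ g p)) p :=
    (hL (g p)).hasFDerivAt.comp p (hg p).hasFDerivAt
  have h2 := h1.clm_apply (hu p).hasFDerivAt
  rw [h2.fderiv]
  simp [add_comm]

theorem dt_ds (g : P2 → R4) (hg : ContDiff ℝ 2 g) (p : P2) : dt (ds g) p = ds (dt g) p := by
  have h1 : ContDiff ℝ 1 (fderiv ℝ g) := hg.fderiv_right (by norm_num)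
  have h2 : DifferentiableAt ℝ (fderiv ℝ g) p := h1.differentiable (by simp) p
  have hs : IsSymmSndFDerivAt ℝ g p := hg.contDiffAt.isSymmSndFDerivAt (by simp)
  have k : ∀ v w : P2, fderiv ℝ (fun q => fderiv ℝ g q v) p w = fderiv ℝ (fderiv ℝ g) p w v := by
    intro v w
    have := h2.hasFDerivAt.clm_apply (hasFDerivAt_const v p)
    rw [this.fderiv]
    simp
  unfold dt ds
  rw [k, k]
  exact hs.eq _ _

/-- one step of the bootstrap -/
theorem reg_step (W : WA) (hfr : FRAME_statement) (D : Data) {m : ℕ} (hm : 1 ≤ m)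
    {f : P2 → R4} (hf : VRep (m + 2) f) {τ : ℂ} (hτ : 0 < τ.im) (hF : ∀ p, Fop D f τ p = 0) :
    VRep (m + 3) f := by
  obtain ⟨A, A', hA, hA', pA, pA', hAA', hA'A, hAJ⟩ := hfr D
  have cf : ContDiff ℝ ((m + 2 : ℕ) : WithTop ℕ∞) f := evv_smooth W hf
  have cf3 : ContDiff ℝ 3 f := cf.of_le (by exact_mod_cast (by omega : 3 ≤ m + 2))
  have cφ : ContDiff ℝ 3 (phi f) := phi_smooth cf3
  have df : Differentiable ℝ f := cf3.differentiable (by simp)
  have dφ : Differentiable ℝ (phi f) := cφ.differentiable (by simp)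
  have cs : ContDiff ℝ 2 (ds (phi f)) :=
    (cφ.fderiv_right (m := 2) (by norm_num)).clm_apply contDiff_const
  have ct : ContDiff ℝ 2 (dt (phi f)) :=
    (cφ.fderiv_right (m := 2) (by norm_num)).clm_apply contDiff_const
  have dds : Differentiable ℝ (ds (phi f)) := cs.differentiable (by simp)
  have ddt : Differentiable ℝ (dt (phi f)) := ct.differentiable (by simp)
  have dJ : Differentiable ℝ D.J := D.J_smooth.differentiable (by simp)
  have dA' : Differentiable ℝ A' := hA'.differentiable (by simp)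
  have cJ' : ContDiff ℝ ∞ (fderiv ℝ D.J) := D.J_smooth.fderiv_right (by simp)
  have cA' : ContDiff ℝ ∞ (fderiv ℝ A') := hA'.fderiv_right (by simp)
  have pJ' : ∀ (n : Fin 4 → ℤ) x, fderiv ℝ D.J (fun i => x i + n i) = fderiv ℝ D.J x :=
    fun n x => fderiv_per D.J_per n x
  have pAA' : ∀ (n : Fin 4 → ℤ) x, fderiv ℝ A' (fun i => x i + n i) = fderiv ℝ A' x :=
    fun n x => fderiv_per pA' n x
  have hJA' : ∀ x u, Jst (A' x u) = A' x (D.J x u) := by
    intro x u
    have h1 := hAJ x (A' x u)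
    rw [hAA'] at h1
    rw [← h1, hA'A]
  -- the equation and its `s`-derivative
  have eq0 : ∀ p, dt (phi f) p = τ.re • ds (phi f) p + τ.im • D.J (phi f p) (ds (phi f) p) := by
    intro p
    have := hF p
    unfold Fop at this
    rw [sub_sub, sub_eq_zero] at this
    exact this
  have eq1 : ∀ p, dt (ds (phi f)) p = τ.re • ds (ds (phi f)) p
      + τ.im • ((fderiv ℝ D.J (phi f p) (ds (phi f) p)) (ds (phi f) p)
        + D.J (phi f p) (ds (ds (phi f)) p)) := by
    intro p
    rw [dt_ds _ (cφ.of_le (by norm_num))]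
    have h1 : dt (phi f) = fun p => τ.re • ds (phi f) p + τ.im • D.J (phi f p) (ds (phi f) p) :=
      funext eq0
    have h2 : Differentiable ℝ fun q => D.J (phi f q) (ds (phi f) q) :=
      fun q => ((dJ _).comp q (dφ q)).clm_apply (dds q)
    conv_lhs => rw [h1]
    conv_lhs => unfold ds
    have h3 : HasFDerivAt (fun q => τ.re • ds (phi f) q + τ.im • D.J (phi f q) (ds (phi f) q))
        (τ.re • fderiv ℝ (ds (phi f)) p
          + τ.im • fderiv ℝ (fun q => D.J (phi f q) (ds (phi f) q)) p) p :=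
      ((dds p).hasFDerivAt.const_smul τ.re).add ((h2 p).hasFDerivAt.const_smul τ.im)
    change fderiv ℝ (fun q => τ.re • ds (phi f) q + τ.im • D.J (phi f q) (ds (phi f) q)) p (1, 0)
      = _
    rw [h3.fderiv, _root_.add_apply, _root_.smul_apply, _root_.smul_apply, fd_clm dJ dφ dds]
    rfl
  -- `ξ`
  set ξ : P2 → R4 := fun p => A' (phi f p) (ds (phi f) p) with hξ
  set h : P2 → R4 := fun p =>
    τ.im • A' (phi f p) ((fderiv ℝ D.J (phi f p) (ds (phi f) p)) (ds (phi f) p))
    + ((fderiv ℝ A' (phi f p) (dt (phi f) p)) (ds (phi f) p)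
      - τ.re • (fderiv ℝ A' (phi f p) (ds (phi f) p)) (ds (phi f) p)
      - τ.im • Jst ((fderiv ℝ A' (phi f p) (ds (phi f) p)) (ds (phi f) p))) with hh
  have key : ∀ p, dt ξ p - τ.re • ds ξ p - τ.im • Jst (ds ξ p) = h p := by
    intro p
    have k1 : dt ξ p = (fderiv ℝ A' (phi f p) (dt (phi f) p)) (ds (phi f) p)
        + A' (phi f p) (dt (ds (phi f)) p) := fd_clm dA' dφ dds p (0, 1)
    have k2 : ds ξ p = (fderiv ℝ A' (phi f p) (ds (phi f) p)) (ds (phi f) p)
        + A' (phi f p) (ds (ds (phi f)) p) := fd_clm dA' dφ dds p (1, 0)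
    rw [k1, k2, eq1 p, hh]
    simp only [map_add, map_smul, hJA', smul_add]
    abel
  have rs : VRep (m + 1) (ds (phi f)) := hf.ds_phi W
  have rt : VRep (m + 1) (dt (phi f)) := hf.dt_phi W
  have rf : VRep (m + 1) f := hf.down W
  have hm2 : 2 ≤ m + 1 := by omega
  have rξ : VRep (m + 1) ξ := VRep.lin W hm2 rf rs hA' pA'
  have rA : VRep (m + 1) fun p => (fderiv ℝ A' (phi f p) (ds (phi f) p)) (ds (phi f) p) :=
    VRep.bil W hm2 rf rs rs cA' pAA'
  have rh : VRep (m + 1) h :=
    ((VRep.lin W hm2 rf (VRep.bil W hm2 rf rs rs cJ' pJ') hA' pA').cmul τ.im).add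
      (((VRep.bil W hm2 rf rt rs cA' pAA').sub (rA.cmul τ.re)).sub (rA.Jst.cmul τ.im))
  have dξ : Differentiable ℝ ξ := (evv_smooth W rξ).differentiable (by simp)
  -- `ξ` gains one derivative
  have rξ' : VRep (m + 2) ξ := by
    have g1 := gain W m hτ (rξ 0) (rξ 1) (rh 0) (rh 1)
      (fun p => by
        rw [← dt_comp ξ dξ, ← ds_comp ξ dξ, ← ds_comp ξ dξ]
        have := congrFun (key p) 0
        change dt ξ p 0 - τ.re * ds ξ p 0 - τ.im * (-(ds ξ p 1)) = _ at this
        linarith)
      (fun p => by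
        rw [← dt_comp ξ dξ, ← ds_comp ξ dξ, ← ds_comp ξ dξ]
        have := congrFun (key p) 1
        change dt ξ p 1 - τ.re * ds ξ p 1 - τ.im * (ds ξ p 0) = _ at this
        linarith)
    have g2 := gain W m hτ (rξ 2) (rξ 3) (rh 2) (rh 3)
      (fun p => by
        rw [← dt_comp ξ dξ, ← ds_comp ξ dξ, ← ds_comp ξ dξ]
        have := congrFun (key p) 2
        change dt ξ p 2 - τ.re * ds ξ p 2 - τ.im * (-(ds ξ p 3)) = _ at this
        linarith)
      (fun p => by
        rw [← dt_comp ξ dξ, ← ds_comp ξ dξ, ← ds_comp ξ dξ]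
        have := congrFun (key p) 3
        change dt ξ p 3 - τ.re * ds ξ p 3 - τ.im * (ds ξ p 2) = _ at this
        linarith)
    intro i
    fin_cases i
    · exact g1.1
    · exact g1.2
    · exact g2.1
    · exact g2.2
  -- `φ_s`, `φ_t` in `WR (m + 2)`
  have rs' : VRep (m + 2) (ds (phi f)) := by
    have := VRep.lin W (by omega : 2 ≤ m + 2) hf rξ' hA pA
    intro i
    convert this i using 2
    simp only [hξ, hAA']
  have rt' : VRep (m + 2) (dt (phi f)) := by
    have := (rs'.cmul τ.re).add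
      ((VRep.lin W (by omega : 2 ≤ m + 2) hf rs' D.J_smooth D.J_per).cmul τ.im)
    intro i
    convert this i using 2
    rw [eq0]
  have rfs : VRep (m + 2) (ds f) := by
    have := rs'.sub (VRep.const W (m + 2) (e 2))
    intro i
    convert this i using 2
    change ds f _ i = (ds (phi f) _ - e 2) i
    rw [ds_phi df]
    simp
  have rft : VRep (m + 2) (dt f) := by
    have := rt'.sub (VRep.const W (m + 2) (e 3))
    intro i
    convert this i using 2
    change dt f _ i = (dt (phi f) _ - e 3) i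
    rw [dt_phi df]
    simp
  intro i
  have hz : ∀ p, ds (fun _ : P2 => (0 : ℝ)) p = 0 := by
    intro p
    unfold ds
    simp
  have hz' : ∀ p, dt (fun _ : P2 => (0 : ℝ)) p = 0 := by
    intro p
    unfold dt
    simp
  exact (gain W (m + 1) hτ (hf i) (Rep.const W (m + 2) 0)
    ((rft i).sub ((rfs i).cmul τ.re)) ((rfs i).cmul (-τ.im))
    (fun p => by
      rw [hz, ← dt_comp f df, ← ds_comp f df]
      ring)
    (fun p => by
      rw [hz, hz', ← ds_comp f df]
      ring)).1

/-- **K3-REG** -/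
theorem reg : REG_statement := by
  intro W hfr D m hm a τ hτ hF
  have h0 : VRep (m + 1) (evv a) := fun i => ⟨a i, rfl⟩
  have hk : ∀ k : ℕ, VRep (m + 1 + k) (evv a) := by
    intro k
    induction k with
    | zero => exact h0
    | succ k ih =>
      obtain ⟨n, hn⟩ : ∃ n, m + 1 + k = n + 2 := ⟨m + k - 1, by omega⟩
      have h2 : m + 1 + (k + 1) = n + 3 := by omega
      rw [hn] at ih
      rw [h2]
      exact reg_step W hfr D (by omega) ih hτ hF
  rw [contDiff_infty]
  intro n
  exact (evv_smooth W (hk n)).of_le (by exact_mod_cast (by omega : n ≤ m + 1 + n))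

end Vale.Agent.P247.H447
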