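import Vale.Agent.P247.H447.Frame

/-!
# P247, K3-REG: functions represented in `WR m`
-/

open scoped ContDiff Topology
open Set Filter Metric

noncomputable section

namespace Vale.Agent.P247.H447

open Vale.Agent.P247.H74 Vale.Agent.P247.H332

/-! ## linearity of `ev` -/

theorem wt_ge (n : ℤ × ℤ) : 1 ≤ wt n := by
  unfold wt
  have := abs_nonneg (n.1 : ℝ)
  have := abs_nonneg (n.2 : ℝ)
  linarith

theorem norm_ch (n : ℤ × ℤ) (p : P2) : ‖ch n p‖ = 1 := by
  unfold ch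
  have : (2 * Real.pi * Complex.I * ((n.1 : ℂ) * (p.1 : ℂ) + (n.2 : ℂ) * (p.2 : ℂ)))
      = ((2 * Real.pi * ((n.1 : ℝ) * p.1 + (n.2 : ℝ) * p.2) : ℝ) : ℂ) * Complex.I := by
    push_cast
    ring
  rw [this, Complex.norm_exp_ofReal_mul_I]

/-- underlying family -/
def fam {m : ℕ} (a : WR m) : ℤ × ℤ → ℂ := ((show realSub from a).1 : ℤ × ℤ → ℂ)

theorem fam_add {m : ℕ} (a b : WR m) (n : ℤ × ℤ) : fam (a + b) n = fam a n + fam b n := rfl

theorem fam_smul {m : ℕ} (c : ℝ) (a : WR m) (n : ℤ × ℤ) : fam (c • a) n = c • fam a n := rfl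

theorem summable_fam {m : ℕ} (a : WR m) : Summable fun n => ‖fam a n‖ := by
  have h : Memℓp (fam a) 1 := (show realSub from a).1.2
  rw [memℓp_gen_iff (by norm_num)] at h
  simpa using h

theorem summable_ev {m : ℕ} (a : WR m) (p : P2) : Summable fun n => (cf a n * ch n p).re := by
  refine Summable.of_norm_bounded (summable_fam a) fun n => ?_
  rw [Real.norm_eq_abs]
  refine (Complex.abs_re_le_norm _).trans ?_
  rw [norm_mul, norm_ch, mul_one]
  change ‖fam a n / ((wt n : ℝ) : ℂ) ^ m‖ ≤ _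
  rw [norm_div, norm_pow, Complex.norm_real, Real.norm_of_nonneg (zero_le_one.trans (wt_ge n))]
  exact div_le_self (norm_nonneg _) (one_le_pow₀ (wt_ge n))

theorem ev_add {m : ℕ} (a b : WR m) (p : P2) : ev (a + b) p = ev a p + ev b p := by
  unfold ev
  rw [← (summable_ev a p).tsum_add (summable_ev b p)]
  refine tsum_congr fun n => ?_
  have : cf (a + b) n = cf a n + cf b n := by
    change fam (a + b) n / _ = fam a n / _ + fam b n / _
    rw [fam_add, add_div]
  rw [this, add_mul, Complex.add_re]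

theorem ev_smul {m : ℕ} (c : ℝ) (a : WR m) (p : P2) : ev (c • a) p = c * ev a p := by
  unfold ev
  rw [← tsum_mul_left]
  refine tsum_congr fun n => ?_
  have : cf (c • a) n = (c : ℂ) * cf a n := by
    change fam (c • a) n / _ = _ * (fam a n / _)
    rw [fam_smul, Complex.real_smul, mul_div_assoc]
  rw [this, mul_assoc, Complex.re_ofReal_mul]

/-! ## represented functions -/

/-- `g` is represented by an element of `WR m` -/
def Rep (m : ℕ) (g : P2 → ℝ) : Prop := ∃ a : WR m, ev a = g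

theorem Rep.add {m : ℕ} {g h : P2 → ℝ} (hg : Rep m g) (hh : Rep m h) :
    Rep m fun p => g p + h p := by
  obtain ⟨a, rfl⟩ := hg
  obtain ⟨b, rfl⟩ := hh
  exact ⟨a + b, funext fun p => ev_add a b p⟩

theorem Rep.cmul {m : ℕ} {g : P2 → ℝ} (c : ℝ) (hg : Rep m g) : Rep m fun p => c * g p := by
  obtain ⟨a, rfl⟩ := hg
  exact ⟨c • a, funext fun p => ev_smul c a p⟩

theorem Rep.sub {m : ℕ} {g h : P2 → ℝ} (hg : Rep m g) (hh : Rep m h) :
    Rep m fun p => g p - h p := by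
  have := hg.add (hh.cmul (-1))
  convert this using 2
  ring

theorem Rep.mul (W : WA) {m : ℕ} {g h : P2 → ℝ} (hg : Rep m g) (hh : Rep m h) :
    Rep m fun p => g p * h p := by
  obtain ⟨a, rfl⟩ := hg
  obtain ⟨b, rfl⟩ := hh
  exact ⟨W.mul m a b, funext fun p => W.mul_ev m a b p⟩

theorem Rep.const (W : WA) (m : ℕ) (c : ℝ) : Rep m fun _ => c :=
  ⟨W.con m c, funext fun p => W.con_ev m c p⟩

theorem Rep.sum (W : WA) {m : ℕ} {ι : Type*} (s : Finset ι) {g : ι → P2 → ℝ}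
    (hg : ∀ i ∈ s, Rep m (g i)) : Rep m fun p => ∑ i ∈ s, g i p := by
  classical
  induction s using Finset.induction_on with
  | empty => simpa using Rep.const W m 0
  | insert j s hj ih =>
    have h1 := (hg j (Finset.mem_insert_self _ _)).add
      (ih fun i hi => hg i (Finset.mem_insert_of_mem hi))
    convert h1 using 2
    rw [Finset.sum_insert hj]

theorem Rep.down (W : WA) {m : ℕ} {g : P2 → ℝ} (hg : Rep (m + 1) g) : Rep m g := by
  obtain ⟨a, rfl⟩ := hg
  exact ⟨W.inc m a, funext fun p => W.inc_ev m a p⟩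

theorem Rep.ds (W : WA) {m : ℕ} {g : P2 → ℝ} (hg : Rep (m + 1) g) : Rep m (H74.ds g) := by
  obtain ⟨a, rfl⟩ := hg
  exact ⟨W.S m a, funext fun p => W.S_ev m a p⟩

theorem Rep.dt (W : WA) {m : ℕ} {g : P2 → ℝ} (hg : Rep (m + 1) g) : Rep m (H74.dt g) := by
  obtain ⟨a, rfl⟩ := hg
  exact ⟨W.T m a, funext fun p => W.T_ev m a p⟩

theorem Rep.contDiff (W : WA) {m : ℕ} {g : P2 → ℝ} (hg : Rep m g) : ContDiff ℝ m g := by
  obtain ⟨a, rfl⟩ := hg
  have : ev a = (fun q : WR m × P2 => ev q.1 q.2) ∘ fun p => (a, p) := rfl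
  rw [this]
  exact (W.ev_smooth m).comp (contDiff_const.prodMk contDiff_id)

/-! ## the gain of one derivative -/

theorem fd_pair {g1 g2 : P2 → ℝ} {p w : P2} (h1 : DifferentiableAt ℝ g1 p)
    (h2 : DifferentiableAt ℝ g2 p) :
    fderiv ℝ (fun q => (g1 q : ℂ) + Complex.I * g2 q) p w
      = (fderiv ℝ g1 p w : ℂ) + Complex.I * (fderiv ℝ g2 p w : ℂ) := by
  have k1 : HasFDerivAt (fun q => (g1 q : ℂ)) (Complex.ofRealCLM.comp (fderiv ℝ g1 p)) p :=
    Complex.ofRealCLM.hasFDerivAt.comp p h1.hasFDerivAt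
  have k2 : HasFDerivAt (fun q => (g2 q : ℂ)) (Complex.ofRealCLM.comp (fderiv ℝ g2 p)) p :=
    Complex.ofRealCLM.hasFDerivAt.comp p h2.hasFDerivAt
  have k3 : HasFDerivAt (fun q => (g1 q : ℂ) + Complex.I * g2 q)
      (Complex.ofRealCLM.comp (fderiv ℝ g1 p) + Complex.I • Complex.ofRealCLM.comp (fderiv ℝ g2 p))
      p := k1.add (k2.const_mul Complex.I)
  rw [k3.fderiv]
  simp

theorem gain (W : WA) (m : ℕ) {τ : ℂ} (hτ : 0 < τ.im) {g1 g2 h1 h2 : P2 → ℝ}
    (rg1 : Rep (m + 1) g1) (rg2 : Rep (m + 1) g2) (rh1 : Rep (m + 1) h1) (rh2 : Rep (m + 1) h2)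
    (e1 : ∀ p, dt g1 p - τ.re * ds g1 p + τ.im * ds g2 p = h1 p)
    (e2 : ∀ p, dt g2 p - τ.re * ds g2 p - τ.im * ds g1 p = h2 p) :
    Rep (m + 2) g1 ∧ Rep (m + 2) g2 := by
  obtain ⟨Φ, hΦ⟩ := W.model (m + 1) τ hτ
  obtain ⟨Ψ, hΨ⟩ := W.model m τ hτ
  have dg1 : Differentiable ℝ g1 := (rg1.contDiff W).differentiable (by simp)
  have dg2 : Differentiable ℝ g2 := (rg2.contDiff W).differentiable (by simp)
  have rc1 := rg1.cmul (Real.pi * τ.im)
  have rc2 := rg2.cmul (Real.pi * τ.im)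
  obtain ⟨a1, ha1⟩ := rg1
  obtain ⟨a2, ha2⟩ := rg2
  obtain ⟨k1, hk1⟩ := rh1.add rc1
  obtain ⟨k2, hk2⟩ := rh2.add rc2
  set w := Φ.symm (k1, k2) with hw
  have hΦw : Φ w = (k1, k2) := by rw [hw]; simp
  set u1 := ev w.1 with hu1
  set u2 := ev w.2 with hu2
  have ru1 : Rep (m + 1 + 1) u1 := ⟨w.1, rfl⟩
  have ru2 : Rep (m + 1 + 1) u2 := ⟨w.2, rfl⟩
  have du1 : Differentiable ℝ u1 := (ru1.contDiff W).differentiable (by simp)
  have du2 : Differentiable ℝ u2 := (ru2.contDiff W).differentiable (by simp)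
  -- the difference, one level lower
  set b : WR (m + 1) × WR (m + 1) :=
    (W.inc (m + 1) w.1 + (-1 : ℝ) • a1, W.inc (m + 1) w.2 + (-1 : ℝ) • a2) with hb
  have hb1 : ev b.1 = fun p => u1 p - g1 p := by
    funext p
    simp only [hb, ev_add, ev_smul, W.inc_ev, ha1]
    ring
  have hb2 : ev b.2 = fun p => u2 p - g2 p := by
    funext p
    simp only [hb, ev_add, ev_smul, W.inc_ev, ha2]
    ring
  have hevb : evc b = fun p => ((u1 p - g1 p : ℝ) : ℂ) + Complex.I * ((u2 p - g2 p : ℝ) : ℂ) := by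
    funext p
    simp only [evc, hb1, hb2]
  have hevw : evc w = fun p => (u1 p : ℂ) + Complex.I * (u2 p : ℂ) := rfl
  have hz : ∀ p, evc (Ψ b) p = 0 := by
    intro p
    rw [hΨ b p]
    have h3 := hΦ w p
    rw [hΦw, hevw] at h3
    simp only [dt, ds] at h3 e1 e2 ⊢
    rw [fd_pair (du1 p) (du2 p), fd_pair (du1 p) (du2 p)] at h3
    have dd1 : DifferentiableAt ℝ (fun q => u1 q - g1 q) p := (du1 p).sub (dg1 p)
    have dd2 : DifferentiableAt ℝ (fun q => u2 q - g2 q) p := (du2 p).sub (dg2 p)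
    rw [hevb, fd_pair dd1 dd2, fd_pair dd1 dd2]
    rw [fderiv_fun_sub (du1 p) (dg1 p), fderiv_fun_sub (du2 p) (dg2 p)]
    simp only [_root_.sub_apply]
    simp only [evc, hk1, hk2] at h3
    rw [← e1 p, ← e2 p] at h3
    have hτ' : τ = (τ.re : ℂ) + (τ.im : ℂ) * Complex.I := (Complex.re_add_im τ).symm
    generalize τ.re = tr at *
    generalize τ.im = ti at *
    subst hτ'
    push_cast at h3 ⊢
    have hI := Complex.I_mul_I
    linear_combination (-1 : ℂ) * h3 + ((ti : ℂ) * ((fderiv ℝ g2 p (1, 0) : ℝ) : ℂ)) * hI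
  have hz2 : ∀ p, ev (Ψ b).1 p = 0 ∧ ev (Ψ b).2 p = 0 := by
    intro p
    have := hz p
    unfold evc at this
    have r1 := congrArg Complex.re this
    have r2 := congrArg Complex.im this
    simp at r1 r2
    exact ⟨r1, r2⟩
  have z0 : ∀ p, ev (0 : WR m) p = 0 := by
    intro p
    have := ev_smul (0 : ℝ) (0 : WR m) p
    simpa using this
  have hb0 : b = 0 := by
    apply Ψ.injective
    rw [map_zero]
    refine Prod.ext ?_ ?_
    · exact W.inj m _ _ (funext fun p => by rw [(hz2 p).1]; exact (z0 p).symm)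
    · exact W.inj m _ _ (funext fun p => by rw [(hz2 p).2]; exact (z0 p).symm)
  have z1 : ∀ p, ev (0 : WR (m + 1)) p = 0 := by
    intro p
    have := ev_smul (0 : ℝ) (0 : WR (m + 1)) p
    simpa using this
  have hu1g : u1 = g1 := by
    funext p
    have := congrFun hb1 p
    rw [hb0] at this
    change ev (0 : WR (m + 1)) p = _ at this
    rw [z1] at this
    linarith
  have hu2g : u2 = g2 := by
    funext p
    have := congrFun hb2 p
    rw [hb0] at this
    change ev (0 : WR (m + 1)) p = _ at this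
    rw [z1] at this
    linarith
  exact ⟨hu1g ▸ ru1, hu2g ▸ ru2⟩

end Vale.Agent.P247.H447
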